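import Vale.Agent.P011LV.Yf

/-!
A line of extremal points.
-/

open Matrix
open scoped Kronecker

namespace Vale.Agent.P011LV

open P011L P011LD P011LE

section

variable {K V : Type} [Field K] [AddCommGroup V] [Module K V] {l m n : Type}

/-- Matrices of polynomial functions. -/
def LM (M : V → Matrix m n K) : Prop := ∀ i j, LP fun x => M x i j

theorem LM.const (M : Matrix m n K) : LM fun _ : V => M := fun _ _ => LP.const _

theorem LM.mul [Fintype m] {M : V → Matrix l m K} {N : V → Matrix m n K} (a : LM M) (b : LM N) :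
    LM fun x => M x * N x := fun i j => LP.sum _ fun t _ => (a i t).mul (b t j)

theorem LM.tp {M : V → Matrix m n K} (a : LM M) : LM fun x => (M x)ᵀ := fun i j => a j i

theorem LM.adj [Fintype n] [DecidableEq n] {M : V → Matrix n n K} (a : LM M) :
    LM fun x => (M x).adjugate := fun i j => by
  simp only [adjugate_apply]
  refine LP.det fun s t => ?_
  simp only [updateRow_apply]
  split_ifs
  exacts [LP.const _, a s t]

theorem LM.proj {ι : Type} (j : ι) : LM fun x : ι → Matrix m n K => x j := fun s t =>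
  LP.lin ((entryLinearMap K K s t).comp (LinearMap.proj (R := K) (φ := fun _ => Matrix m n K) j))

theorem adj_eq [Fintype n] [DecidableEq n] (x : GL n K) : x.1.adjugate = x.1.det • x⁻¹.1 := by
  rw [← Units.inv_mul_cancel_left x x.1.adjugate, mul_adjugate, Matrix.mul_smul, Matrix.mul_one]

theorem kr_z (d : Matrix (Fin 3) (Fin 3) K) (a : Fin 2) :
    (d ⊗ₖ (1 : Matrix (Fin 2) (Fin 2) K)) * z K a = z K a * d := by
  ext ⟨i, b⟩ j
  rw [mul_z, z_mul', kronecker_apply, one_apply, mul_ite, mul_one, mul_zero]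

theorem z_kr (d : Matrix (Fin 3) (Fin 3) K) (a : Fin 2) :
    (z K a)ᵀ * (d ⊗ₖ (1 : Matrix (Fin 2) (Fin 2) K)) = d * (z K a)ᵀ := by
  ext i ⟨j, b⟩
  rw [z_mul, mul_z', kronecker_apply, one_apply, mul_ite, mul_one, mul_zero]
  simp only [eq_comm]

theorem z_map (f : K →+* K) (a : Fin 2) : (z K a).map f = z K a := by
  ext i j
  simp [z, apply_ite f]

theorem Ad_sc {u v : (R K)ˣ} {c : K} (h : u.1 = c • v.1) (X : R K) : Ad u X = Ad v X :=
  Ad_eq.2 (by rw [h, smul_mul_assoc, mul_smul_comm, ← Ad_eq.1 rfl])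

theorem cj_Ad (f : K →+* K) (q : GL I K) (X : R K) :
    cj f (Ad (EU q) X) = Ad (EU (GeneralLinearGroup.map f q)) (cj f X) := by
  rw [Ad, Ad, map_mul, map_mul, ← map_inv, ← map_inv, ← map_inv, EU_val, EU_val, cj_E, cj_E]
  rfl

/-- The polynomial. -/
noncomputable def FF (g : GL S K) (b l : K) (x y : Matrix S S K) : K :=
  x.det * (-l⁻¹ * ((z K 0)ᵀ * x.adjugate * (g.1 * ((z K 0)ᵀ * y.adjugate)ᵀ)).det +
    l / b * (x.det * y.det) ^ 2 * ((y * z K 1)ᵀ * g⁻¹.1 * (x * z K 1)).det)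

theorem lp_FF (g : GL S K) (b l : K) : LP fun x : Fin 2 → Matrix S S K => FF g b l (x 0) (x 1) :=
  (LP.det (LM.proj 0)).mul (((LP.const _).mul (LP.det (((LM.const _).mul (LM.proj 0).adj).mul
    ((LM.const _).mul ((LM.const _).mul (LM.proj 1).adj).tp)))).add (((LP.const _).mul
      (((LP.det (LM.proj 0)).mul (LP.det (LM.proj 1))).pow 2)).mul (LP.det ((((LM.proj 1).mul
        (LM.const _)).tp.mul (LM.const _)).mul ((LM.proj 0).mul (LM.const _))))))

variable [CharZero K]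

theorem FF_ne (g : GL S K) {b l : K} (hb : b ≠ 0) (e : l ^ 2 = g.1.det * -b) :
    FF g b l g.1 1 ≠ 0 := by
  have d0 : g.1.det ≠ 0 := g.det_ne_zero
  have l0 : l ≠ 0 := fun h => mul_ne_zero d0 (neg_ne_zero.2 hb) (by rw [← e, h]; simp)
  have e1 : FF g b l g.1 1 = 2 * g.1.det ^ 3 * l / b := by
    rw [FF, adjugate_one, Matrix.mul_one, Matrix.one_mul, transpose_transpose, Matrix.mul_assoc,
      ← Matrix.mul_assoc _ g.1, adjugate_mul, Matrix.mul_assoc, ← Matrix.mul_assoc _ g.1,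
      Units.inv_mul, Matrix.one_mul, Matrix.smul_mul, Matrix.mul_smul, Matrix.one_mul, z_z, z_z]
    simp only [if_true, det_smul, det_one, Fintype.card_fin]
    field_simp
    linear_combination -e
  rw [e1]
  exact div_ne_zero (mul_ne_zero (mul_ne_zero two_ne_zero (pow_ne_zero _ d0)) l0) hb

theorem io_w {g g' : GL S K} {l l' c : K} (e : io g 1 l = c • io g' 1 l') : g.1 = c • g'.1 := by
  ext j i
  have := congrArg (fun X : R K => (X (jm 0 (Alt K).zero_mem (of fun _ => Pi.single i 1))).2 0 j) e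
  simpa [io_2, mul_apply, Pi.single_apply] using this

theorem Ad_Yf {u : (R K)ˣ} {g : GL S K} {h : Matrix (Fin 2) (Fin 2) K} {l : K} (e : u.1 = io g h l)
    {α β α' β' : Fin 2 → K} (η : Matrix (Fin 3) S K) (ζ : Matrix S (Fin 3) K)
    (a : α' ᵥ* h = l • α) (b : l • β' = h *ᵥ β) :
    Ad u (Yf α β η ζ) = Yf α' β' (η * g⁻¹.1) (g.1 * ζ) := Ad_eq.2 (e ▸ io_Yf η ζ a b)

/-- The family. -/
noncomputable def Yx (x : GL S K) : R K :=
  Yf ![0, x.1.det] ![-1, 0] ((z K 0)ᵀ * x⁻¹.1) (x.1 * z K 1)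

theorem xt_Yx [IsAlgClosed K] (x : GL S K) : Xt (Yx x) := by
  have d0 : x.1.det ≠ 0 := x.det_ne_zero
  let u : (R K)ˣ := ⟨io x !![x.1.det, 0; 0, 1] x.1.det, io x⁻¹ !![x.1.det⁻¹, 0; 0, 1] x.1.det⁻¹,
    by simp [io_mul, d0, ← one_fin_two, io_one], by simp [io_mul, d0, ← one_fin_two, io_one]⟩
  have m : u ∈ SX K := ⟨_, by simpa using d0, N_io (by simp [sq])⟩
  have e : Ad u Y0 = Yx x := Ad_Yf rfl _ _ (by simp) (by
    ext i
    fin_cases i <;> simp)
  exact e ▸ xt_Y0.Ad m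

theorem cj_Yx (f : K →+* K) (x : GL S K) : cj f (Yx x) = Yx (GeneralLinearGroup.map f x) := by
  have e1 : f ∘ ![0, x.1.det] = ![0, (x.1.map f).det] := by
    ext i
    fin_cases i <;> simp [f.map_det]
  have e2 : f ∘ ![-1, 0] = ![-1, 0] := by
    ext i
    fin_cases i <;> simp
  rw [Yx, cj_Yf, e1, e2, Matrix.map_mul, Matrix.map_mul, transpose_map, z_map, z_map]
  rfl

theorem Ad_Yx {u : (R K)ˣ} {g x x' : GL S K} {l : K} (e : u.1 = io g 1 l) (h : l ^ 2 = g.1.det)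
    {d : GL (Fin 3) K} (hx : g * x' = x * kr d 1) : Ad u (Yx x') = (d.1.det / l) • Yx x := by
  have l0 : l ≠ 0 := fun a => g.det_ne_zero (by rw [← h, a]; simp)
  have d0 : d.1.det ≠ 0 := d.det_ne_zero
  have e1 : (z K 0)ᵀ * x'⁻¹.1 * g⁻¹.1 = d⁻¹.1 * ((z K 0)ᵀ * x⁻¹.1) := by
    rw [Matrix.mul_assoc, ← Units.val_mul, ← _root_.mul_inv_rev, hx, _root_.mul_inv_rev,
      Units.val_mul, ← Matrix.mul_assoc, ← Matrix.mul_assoc, ← z_kr]
    rfl
  have e2 : g.1 * (x'.1 * z K 1) = x.1 * z K 1 * d.1 := by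
    rw [← Matrix.mul_assoc, ← Units.val_mul, hx, Units.val_mul, Matrix.mul_assoc, Matrix.mul_assoc,
      ← kr_z]
    rfl
  have e3 : g.1.det * x'.1.det = x.1.det * d.1.det ^ 2 := by
    rw [← det_mul, ← Units.val_mul, hx, Units.val_mul, det_mul]
    simp [kr, det_kronecker]
  have e4 : d⁻¹.1.det = d.1.det⁻¹ := eq_inv_of_mul_eq_one_left (by
    rw [← det_mul, Units.inv_mul, det_one])
  rw [Yx, Ad_Yf e _ _ (vecMul_one _) ((smul_inv_smul₀ l0 _).trans (one_mulVec _).symm), e1, e2,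
    Yf_det, Yx, smul_Yf, e4, smul_smul, smul_smul, div_eq_mul_inv]
  refine congrArg (fun a => Yf a _ _ _) (funext fun i => ?_)
  fin_cases i
  · simp
  · simp only [Fin.mk_one, Pi.smul_apply, cons_val_one, cons_val_zero, smul_eq_mul]
    field_simp
    linear_combination x'.1.det * h + e3

theorem tr_Yx {u : (R K)ˣ} {g : GL S K} {b l : K} (e : u.1 = io g !![b, 0; 0, -1] l) (hb : b ≠ 0)
    (l0 : l ≠ 0) (x y : GL S K) (h : FF g b l x.1 y.1 ≠ 0) : tr (Yx x * Ad u (-tp (Yx y))) ≠ 0 := by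
  intro h0
  rw [Ad_neg, mul_neg, map_neg, neg_eq_zero, Yx, Yx, tp_Yf, Ad_Yf (α' := ![-l / b, 0])
    (β' := ![0, -y.1.det / l]) e _ _ (by ext i; fin_cases i <;> simp [hb])
    (by ext i; fin_cases i <;> simp [mul_div_cancel₀ _ l0]), tr_Yf] at h0
  refine h (mul_eq_zero_of_right _ ?_)
  rw [adj_eq, adj_eq]
  simp only [Matrix.mul_smul, Matrix.smul_mul, transpose_smul, det_smul, Fintype.card_fin]
  simp only [vec2_dotProduct, cons_val_zero, cons_val_one] at h0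
  linear_combination (x.1.det * y.1.det) ^ 2 / 3 * h0

end

variable {k K : Type} [Field k] [Field K] [Algebra k K] {o : (K ≃ₐ[k] K) →* ℤˣ}
  {p : (K ≃ₐ[k] K) → GL I K} {σ : K ≃ₐ[k] K}

theorem ac_in (h : o σ = 1) (X : R K) : ac o p σ X = Ad (EU (p σ)) (cj (σ : K →+* K) X) := by
  rw [ac, lo, if_pos h]

theorem st_in {n : Type} [Fintype n] [DecidableEq n] (h : o σ = 1) (q : GL n K) :
    st o σ q = GeneralLinearGroup.map (σ : K →+* K) q := by rw [st, if_pos h]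

theorem ac_smul (c : K) (X : R K) : ac o p σ (c • X) = σ c • ac o p σ X := by
  rw [ac, ac, lo, lo, cj_smul, ← Ad_smul]
  split_ifs
  exacts [rfl, by rw [tp_smul, smul_neg]; rfl]

theorem sl_ac {d : (K ≃ₐ[k] K) → GL (Fin 3) K} (h : Cmp o p d) : Sl o.ker (ac o p) := by
  refine ⟨fun σ s X Y => ?_, fun σ _ => ac_smul, fun σ s τ t X => ?_, fun X => ?_⟩
  · rw [ac_in s, ac_in s, ac_in s, map_add, Ad_add]
  · obtain ⟨c, e, -⟩ := h.mul σ τ
    rw [ac_in (o.ker.mul_mem s t), ac_in s, ac_in t, cj_Ad, ← Ad_mul, ← map_mul, ← st_in s, cj_cj]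
    exact (Ad_sc (c := c) (by rw [EU_val, EU_val, e, map_smul]) _).symm
  · obtain ⟨T, hT⟩ := h.cont.and (Op.mat ⊤ (E.symm X))
    refine ⟨T, fun σ s e => ?_⟩
    obtain ⟨⟨-, c, a, -⟩, b⟩ := hT σ trivial e
    rw [ac_in s, Ad_sc (v := 1) (c := c) (by rw [EU_val, a, map_smul, map_one]; rfl), Ad_one, cj_def]
    exact (congrArg E b).trans (E.apply_symm_apply X)

theorem sl_g [CharZero K] {d : (K ≃ₐ[k] K) → GL (Fin 3) K} {g : (K ≃ₐ[k] K) → GL S K}
    {l : (K ≃ₐ[k] K) → K} (hc : Cmp o p d) (e1 : ∀ σ, o σ = 1 → E (p σ).1 = io (g σ) 1 (l σ)) :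
    Sl o.ker fun σ (M : Matrix S S K) => (g σ).1 * M.map σ * (kr (d σ) 1)⁻¹.1 := by
  refine sl_hom (fun σ => kr (d σ) 1) g (fun σ a τ a' => ?_) ?_
  · obtain ⟨c, e, e'⟩ := hc.mul σ τ
    rw [st_in a] at e e'
    refine ⟨c, ?_, ?_⟩
    · have : (kr (d τ) 1).1.map σ = (d τ).1.map σ ⊗ₖ (1 : Matrix (Fin 2) (Fin 2) K) := by
        ext i j
        simp [kr, one_apply, apply_ite σ]
      rw [this]
      change (d σ).1 ⊗ₖ 1 * _ = c • ((d (σ * τ)).1 ⊗ₖ 1)
      rw [← mul_kronecker_mul, ← smul_kronecker, ← e', Matrix.mul_one]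
      rfl
    · have := congrArg E e
      rw [Units.val_mul, map_mul, map_smul, e1 σ a, e1 _ (o.ker.mul_mem a a')] at this
      change _ * E ((p τ).1.map (σ : K →+* K)) = _ at this
      rw [← cj_E, e1 τ a', cj_io, io_mul, Matrix.map_one _ (map_zero _) (map_one _),
        Matrix.mul_one] at this
      exact io_w this
  · obtain ⟨T, hT⟩ := hc.cont
    refine ⟨T, fun σ a e => ?_⟩
    obtain ⟨-, c, e, e'⟩ := hT σ trivial e
    refine ⟨c, ?_, io_w (g' := 1) (l := l σ) (l' := 1) ?_⟩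
    · change (d σ).1 ⊗ₖ 1 = _
      rw [e', smul_kronecker, one_kronecker_one]
    · rw [← e1 σ a, e, io_one, map_smul, map_one]

theorem den_two [Algebra.IsAlgebraic k K] [Infinite k] {m n : Type} {Γ : Subgroup (K ≃ₐ[k] K)}
    {a : (K ≃ₐ[k] K) → Matrix m n K → Matrix m n K} (h : Sl Γ a) {s : K ≃ₐ[k] K} {α : K}
    (h1 : ∀ σ ∈ Γ, σ α = α) (h2 : s α ≠ α) {f : Matrix m n K → Matrix m n K → K}
    (hf : LP fun x : Fin 2 → Matrix m n K => f (x 0) (x 1)) {x y : Matrix m n K} (h0 : f x y ≠ 0) :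
    ∃ x ∈ Fx Γ a, f x (x.map s) ≠ 0 := by
  obtain ⟨_, ⟨x, hx, rfl⟩, hF⟩ := (h.dn_conj (U := fun _ => Matrix m n K) ![1, s] (fun i j e => by
    have := e α h1
    fin_cases i <;> fin_cases j
    exacts [rfl, absurd this.symm h2, absurd this h2, rfl])
    (fun j x => x.map (![1, s] j)) (fun j v w => Matrix.map_add _ (map_add _) _ _)
    (fun j c v => map_smul' _ c v) fun j y => ⟨y.map (![1, s] j).symm, by
      ext; simp⟩).den hf ⟨![x, y], h0⟩
  exact ⟨x, hx, hF⟩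

theorem yy' : YY := by
  intro k K _ _ _ _ _ _ o p d α b g l hc hα h s hs
  have := IsAlgClosure.isAlgClosed k (K := K)
  have q1 : ∀ σ, o σ = 1 → hq o α b σ = 1 := fun σ a => by
    rw [hq, if_pos ((hα σ).2 a), if_pos a, mul_one]
  have q2 : (hq o α b s).1 = !![b.1, 0; 0, -1] := by
    rw [hq, if_neg (mt (hα s).1 hs), if_neg hs]
    simp [jq, wq]
  have e1 : ∀ σ, o σ = 1 → E (p σ).1 = io (g σ) 1 (l σ) := fun σ a => by
    rw [h.eq, q1 σ a, Units.val_one]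
  have l2 : l s ^ 2 = (g s).1.det * -b.1 := by rw [h.det, q2]; simp
  obtain ⟨x, hx, hF⟩ := den_two (sl_g hc e1) (fun τ t => (hα τ).2 t) (mt (hα s).1 hs)
    (f := FF (g s) b (l s)) (lp_FF (g s) b (l s)) (FF_ne _ b.ne_zero l2)
  obtain ⟨X, rfl⟩ : ∃ X : GL S K, X.1 = x :=
    ⟨GeneralLinearGroup.mkOfDetNeZero x (left_ne_zero_of_mul hF), rfl⟩
  have e2 : ∀ σ, o σ = 1 → ac o p σ (Yx X) = ((d σ).1.det / l σ) • Yx X := fun σ a => by
    have e : g σ * GeneralLinearGroup.map (σ : K →+* K) X * (kr (d σ) 1)⁻¹ = X := by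
      refine Units.ext ?_
      rw [Units.val_mul, Units.val_mul]
      exact hx σ a
    rw [ac_in a, cj_Yx]
    exact Ad_Yx ((EU_val _).trans (e1 σ a)) (by rw [h.det, q1 σ a]; simp)
      (mul_inv_eq_iff_eq_mul.1 e)
  obtain ⟨Y, m, Y0, hY⟩ := (sl_ac hc).exists_ne (Submodule.span K {Yx X}) (fun σ a Y m => by
    obtain ⟨c, rfl⟩ := Submodule.mem_span_singleton.1 m
    rw [ac_smul, e2 σ a]
    exact Submodule.smul_mem _ _ (Submodule.smul_mem _ _ (Submodule.mem_span_singleton_self _)))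
    (mt Submodule.span_singleton_eq_bot.1 (xt_Yx X).ne)
  obtain ⟨c, rfl⟩ := Submodule.mem_span_singleton.1 m
  have c0 : c ≠ 0 := left_ne_zero_of_smul Y0
  refine ⟨_, (xt_Yx X).smul c0, ?_, hY, ?_⟩
  · rw [Yx, smul_Yf]
    exact dg_Yf _ _ _ _ (by simp) (by simp)
  · rw [ac_smul, smul_mul_smul_comm, map_smul, ac, lo, if_neg hs, cj_Yx]
    refine smul_ne_zero (mul_ne_zero c0 ((map_ne_zero s).2 c0)) (tr_Yx (g := g s) (l := l s)
      (by rw [EU_val, h.eq, q2]) b.ne_zero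
      (fun a => mul_ne_zero (g s).det_ne_zero (neg_ne_zero.2 b.ne_zero) ?_) _ _ hF)
    rw [← l2, a, zero_pow two_ne_zero]

theorem yy (_ : DEN2) : YY := yy'

end Vale.Agent.P011LV
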