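import Vale.Agent.P011LE.IF

/-!
The elements of the Lie algebra attached to decomposable three-forms.
-/

open Matrix

namespace Vale.Agent.P011LV

open P011L P011LD P011LE

variable {K : Type} [Field K]

/-- The skew matrix of a vector. -/
def cr (a : Fin 3 → K) : Matrix (Fin 3) (Fin 3) K := !![0, a 2, -a 1; -a 2, 0, a 0; a 1, -a 0, 0]

/-- The vector of a skew matrix. -/
def vc (B : Matrix (Fin 3) (Fin 3) K) : Fin 3 → K := ![B 1 2, B 2 0, B 0 1]

theorem cr_add (a b : Fin 3 → K) : cr (a + b) = cr a + cr b := by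
  ext i j
  fin_cases i <;> fin_cases j <;> simp [cr, add_comm]

theorem cr_smul (c : K) (a : Fin 3 → K) : cr (c • a) = c • cr a := by
  ext i j
  fin_cases i <;> fin_cases j <;> simp [cr]

theorem cr_zero : cr (0 : Fin 3 → K) = 0 := by simpa using cr_smul 0 (0 : Fin 3 → K)

theorem cr_tp (a : Fin 3 → K) : (cr a)ᵀ = -cr a := by
  ext i j
  fin_cases i <;> fin_cases j <;> simp [cr]

theorem vc_add (A B : Matrix (Fin 3) (Fin 3) K) : vc (A + B) = vc A + vc B := by
  ext i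
  fin_cases i <;> rfl

theorem vc_smul (c : K) (A : Matrix (Fin 3) (Fin 3) K) : vc (c • A) = c • vc A := by
  ext i
  fin_cases i <;> rfl

theorem vc_zero : vc (0 : Matrix (Fin 3) (Fin 3) K) = 0 := by
  ext i
  fin_cases i <;> rfl

theorem vc_cr (a : Fin 3 → K) : vc (cr a) = a := by
  ext i
  fin_cases i <;> rfl

theorem cr_map (f : K →+* K) (a : Fin 3 → K) : (cr a).map f = cr (f ∘ a) := by
  ext i j
  fin_cases i <;> fin_cases j <;> simp [cr]

theorem vc_map (f : K →+* K) (A : Matrix (Fin 3) (Fin 3) K) : vc (A.map f) = f ∘ vc A := by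
  ext i
  fin_cases i <;> rfl

theorem cr_mv (m : Matrix (Fin 3) (Fin 3) K) (a : Fin 3 → K) :
    mᵀ * cr (m *ᵥ a) * m = m.det • cr a := by
  ext i j
  fin_cases i <;> fin_cases j <;>
    simp [cr, mul_apply, Fin.sum_univ_three, det_fin_three, mulVec, dotProduct] <;> ring

theorem mv_vc (m : Matrix (Fin 3) (Fin 3) K) (a : Fin 3 → K) :
    m *ᵥ vc (mᵀ * cr a * m) = m.det • a := by
  ext i
  fin_cases i <;>
    simp [cr, vc, mul_apply, Fin.sum_univ_three, det_fin_three, mulVec, dotProduct] <;> ring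

theorem tr_cr (a b : Fin 3 → K) : ((cr a)ᵀ * cr b).trace = 2 * a ⬝ᵥ b := by
  simp [cr, trace, mul_apply, Fin.sum_univ_three, dotProduct]
  ring

theorem vv_zero (β : Fin 2 → K) : vecMulVec β (0 : S → K) = 0 :=
  Matrix.ext fun _ _ => mul_zero _

variable [CharZero K]

theorem cr_vc {m : Type} [Fintype m] (A : Matrix m m K) (h : Aᵀ = -A) (ζ : Matrix m (Fin 3) K) :
    cr (vc (ζᵀ * A * ζ)) = ζᵀ * A * ζ := by
  have e : (ζᵀ * A * ζ)ᵀ = -(ζᵀ * A * ζ) := by
    rw [transpose_mul, transpose_mul, transpose_transpose, h, Matrix.neg_mul, Matrix.mul_neg,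
      Matrix.mul_assoc]
  generalize ζᵀ * A * ζ = B at e
  have a (i j) : B j i = -B i j := congrFun (congrFun e i) j
  have b (i) : B i i = 0 := by linear_combination a i i / 2
  ext i j
  fin_cases i <;> fin_cases j <;> simp [cr, vc, b, a 0 1, a 2 0, a 1 2]

section

variable (α β α' β' : Fin 2 → K) (η η' : Matrix (Fin 3) S K) (ζ ζ' : Matrix S (Fin 3) K)

/-- From vectors to alternating matrices. -/
def f1 : (Fin 3 → K) →ₗ[K] J K where
  toFun a := jm (ηᵀ * cr a * η) (mem_Alt (by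
    rw [transpose_mul, transpose_mul, transpose_transpose, cr_tp, Matrix.neg_mul, Matrix.mul_neg,
      Matrix.mul_assoc])) 0
  map_add' a b := J_ext (by simp [cr_add, Matrix.mul_add, Matrix.add_mul]) (by simp)
  map_smul' c a := J_ext (by simp [cr_smul]) (by simp)

/-- The projection of a row. -/
def g1 : J K →ₗ[K] Fin 3 → K where
  toFun y := η *ᵥ (α ᵥ* y.2)
  map_add' a b := by simp [vecMul_add, mulVec_add]
  map_smul' c a := by simp [vecMul_smul, mulVec_smul]

/-- From vectors to rows. -/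
def f2 : (Fin 3 → K) →ₗ[K] J K where
  toFun b := jm 0 (Alt K).zero_mem (vecMulVec β (ζ *ᵥ b))
  map_add' a b := J_ext (by simp) (by simp [mulVec_add, vecMulVec_add])
  map_smul' c a := J_ext (by simp) (by simp [mulVec_smul, vecMulVec_smul])

/-- The restriction of an alternating matrix. -/
def g2 : J K →ₗ[K] Fin 3 → K where
  toFun y := vc (ζᵀ * y.1.1 * ζ)
  map_add' a b := by simp [vc_add, Matrix.mul_add, Matrix.add_mul]
  map_smul' c a := by simp [vc_smul]

/-- The element attached to a three-form. -/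
def Yf : R K := f1 η ∘ₗ g1 α η + f2 β ζ ∘ₗ g2 ζ

theorem Yf_1 (y : J K) : (Yf α β η ζ y).1.1 = ηᵀ * cr (η *ᵥ (α ᵥ* y.2)) * η := add_zero _

theorem Yf_2 (y : J K) : (Yf α β η ζ y).2 = vecMulVec β (ζ *ᵥ vc (ζᵀ * y.1.1 * ζ)) := zero_add _

theorem smul_Yf (c : K) : c • Yf α β η ζ = Yf (c • α) (c • β) η ζ :=
  LinearMap.ext fun y => J_ext (by simp [Yf_1, smul_vecMul, mulVec_smul, cr_smul])
    (by simp [Yf_2, smul_vecMulVec])

theorem Yf_det (m n : Matrix (Fin 3) (Fin 3) K) :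
    Yf α β (m * η) (ζ * n) = Yf (m.det • α) (n.det • β) η ζ := by
  refine LinearMap.ext fun y => J_ext ?_ ?_
  · rw [Yf_1, Yf_1, smul_vecMul, mulVec_smul, cr_smul, ← cr_mv, mulVec_mulVec, transpose_mul]
    simp only [Matrix.mul_assoc]
  · rw [Yf_2, Yf_2, smul_vecMulVec, ← vecMulVec_smul, ← mulVec_smul, ← mv_vc,
      cr_vc _ y.1.2.1, mulVec_mulVec, transpose_mul]
    simp only [Matrix.mul_assoc]

variable {α β α' β'} in
theorem io_Yf {g : GL S K} {h : Matrix (Fin 2) (Fin 2) K} {l : K} (a : α' ᵥ* h = l • α)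
    (b : l • β' = h *ᵥ β) :
    io g h l * Yf α β η ζ = Yf α' β' (η * g⁻¹.1) (g.1 * ζ) * io g h l := by
  have e1 : g.1ᵀ * g⁻¹.1ᵀ = 1 := by rw [← transpose_mul, Units.inv_mul, transpose_one]
  refine LinearMap.ext fun y => J_ext ?_ ?_
  · rw [Module.End.mul_apply, Module.End.mul_apply, io_1, Yf_1, Yf_1, io_2, ← vecMul_vecMul,
      ← vecMul_vecMul, a, vecMul_transpose, mulVec_mulVec, Matrix.mul_assoc η, Units.inv_mul,
      Matrix.mul_one, smul_vecMul, mulVec_smul, cr_smul, transpose_mul]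
    simp only [Matrix.mul_assoc, Matrix.mul_smul, Matrix.smul_mul]
  · have e : (g.1 * ζ)ᵀ * (l • (g⁻¹.1ᵀ * y.1.1 * g⁻¹.1) : Matrix S S K) * (g.1 * ζ) =
        l • (ζᵀ * y.1.1 * ζ) := by
      simp only [Matrix.mul_smul, Matrix.smul_mul, transpose_mul, Matrix.mul_assoc]
      rw [← Matrix.mul_assoc g⁻¹.1, Units.inv_mul, Matrix.one_mul, ← Matrix.mul_assoc g.1ᵀ, e1,
        Matrix.one_mul]
    rw [Module.End.mul_apply, Module.End.mul_apply, io_2, Yf_2, Yf_2, io_1, e, vc_smul, mulVec_smul,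
      vecMulVec_smul, ← smul_vecMulVec, b, mul_vecMulVec, vecMulVec_mul, vecMul_transpose,
      mulVec_mulVec]

theorem tp_Yf : tp (Yf α β η ζ) = Yf β α ζᵀ ηᵀ := by
  refine tp_eq fun y z => mul_left_cancel₀ (two_ne_zero (α := K)) ?_
  have t (η : Matrix (Fin 3) S K) (a : Fin 3 → K) (A : Alt K) :
      ((ηᵀ * cr a * η)ᵀ * A.1).trace = 2 * a ⬝ᵥ vc (η * A.1 * ηᵀ) := by
    have := cr_vc A.1 A.2.1 ηᵀ
    rw [transpose_transpose] at this
    rw [← tr_cr, this, transpose_mul, Matrix.mul_assoc, trace_mul_comm]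
    simp only [transpose_mul, transpose_transpose, Matrix.mul_assoc]
  have s (α : Fin 2 → K) (u : S → K) (w : Matrix (Fin 2) S K) :
      (vecMulVec α u * wᵀ).trace = α ᵥ* w ⬝ᵥ u := by
    rw [vecMulVec_mul, trace_vecMulVec, vecMul_transpose, dotProduct_mulVec]
  rw [bf_comm y, bf_eq, bf_eq, Yf_1, Yf_2, Yf_1, Yf_2, s, s, t, t, transpose_transpose,
    transpose_transpose, dotProduct_mulVec, dotProduct_mulVec, vecMul_transpose, mulVec_transpose,
    add_comm]

theorem cj_Yf (f : K →+* K) :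
    cj f (Yf α β η ζ) = (Yf (f ∘ α) (f ∘ β) (η.map f) (ζ.map f) : R K) := by
  have mv {m n : Type} [Fintype n] (M : Matrix m n K) (v : n → K) :
      M.map f *ᵥ (f ∘ v) = f ∘ (M *ᵥ v) := funext fun i => (f.map_mulVec M v i).symm
  have vm {m n : Type} [Fintype m] (M : Matrix m n K) (v : m → K) :
      (f ∘ v) ᵥ* M.map f = f ∘ (v ᵥ* M) := funext fun i => (f.map_vecMul M v i).symm
  refine cj_eq f fun y => J_ext ?_ ?_
  · rw [Yf_1]
    change _ * cr (_ *ᵥ (_ ᵥ* y.2.map f)) * _ = (Yf α β η ζ y).1.1.map f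
    rw [Yf_1, vm, mv, Matrix.map_mul, Matrix.map_mul, cr_map, transpose_map]
  · rw [Yf_2]
    change vecMulVec _ (_ *ᵥ vc (_ * y.1.1.map f * _)) = (Yf α β η ζ y).2.map f
    rw [Yf_2, ← transpose_map, ← Matrix.map_mul, ← Matrix.map_mul, vc_map, mv]
    exact Matrix.ext fun _ _ => (map_mul f _ _).symm

omit [CharZero K] in
theorem tr_comp (f : (Fin 3 → K) →ₗ[K] J K) (g : J K →ₗ[K] Fin 3 → K) {c : K}
    (h : ∀ a, g (f a) = c • a) : tr (f ∘ₗ g) = 3 * c := by
  let b := (Pi.basisFun K I).map (co (K := K)).symm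
  have := Module.Finite.of_basis b
  have := Module.Free.of_basis b
  have e (X : R K) : tr X = LinearMap.trace K _ X := by
    rw [LinearMap.trace_eq_matrix_trace K b, tr_def]
    refine congrArg _ (Matrix.ext fun i j => ?_)
    have := congrFun (co_R X (co.symm (Pi.single j 1))) i
    simpa [b, LinearMap.toMatrix_apply] using this.symm
  rw [e, LinearMap.trace_comp_comm', show g ∘ₗ f = c • LinearMap.id from LinearMap.ext h, map_smul,
    LinearMap.trace_id]
  simp [mul_comm]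

theorem tr_Yf : tr (Yf α β η ζ * Yf α' β' η' ζ') =
    3 * (α ⬝ᵥ β' * (η * ζ').det) + 3 * (α' ⬝ᵥ β * (η' * ζ).det) := by
  have e : Yf α β η ζ * Yf α' β' η' ζ' =
      f1 η ∘ₗ (g1 α η ∘ₗ Yf α' β' η' ζ') + f2 β ζ ∘ₗ (g2 ζ ∘ₗ Yf α' β' η' ζ') := add_mul _ _ _
  rw [e, map_add]
  refine congrArg₂ _ (tr_comp _ _ fun a => ?_) (tr_comp _ _ fun a => ?_)
  · change η *ᵥ (α ᵥ* (Yf α' β' η' ζ' _).2) = _
    rw [Yf_2, vecMul_vecMulVec, mulVec_smul, mulVec_mulVec, mul_smul, ← mv_vc, transpose_mul]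
    simp only [f1, LinearMap.coe_mk, AddHom.coe_mk, jm_1, Matrix.mul_assoc]
  · change vc (ζᵀ * (Yf α' β' η' ζ' _).1.1 * ζ) = _
    rw [Yf_1]
    change vc (ζᵀ * (η'ᵀ * cr (η' *ᵥ (α' ᵥ* vecMulVec β (ζ *ᵥ a))) * η') * ζ) = _
    rw [vecMul_vecMulVec, mulVec_smul, mulVec_mulVec, cr_smul, mul_smul]
    conv_rhs => rw [← vc_cr a, ← vc_smul, ← cr_mv, ← vc_smul, transpose_mul]
    simp only [Matrix.mul_assoc, Matrix.mul_smul, Matrix.smul_mul]

theorem dg_Yf (a : α 0 = 0) (b : β 1 = 0) : Dg 1 (Yf α β η ζ) := by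
  have e1 (w : Matrix (Fin 2) S K) :
      α ᵥ* (!![(1 : K), 0; 0, -1] * w) = (-1 : K) • α ᵥ* w := by
    rw [← vecMul_vecMul, ← smul_vecMul]
    refine congrArg (· ᵥ* w) (funext fun i => ?_)
    fin_cases i <;> simp [vecMul, dotProduct, a]
  have e2 : !![1, 0; 0, -1] *ᵥ β = β := by
    ext i
    fin_cases i <;> simp [mulVec, dotProduct, b]
  refine LinearMap.ext fun y => J_ext ?_ ?_
  · simp only [h0, LinearMap.sub_apply, Module.End.mul_apply, sub_1, io_1, io_2, Yf_1,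
      Units.val_one, transpose_one, Matrix.mul_one, e1, mulVec_smul, cr_smul]
    simp [Yf_1]
  · simp only [h0, LinearMap.sub_apply, Module.End.mul_apply, sub_2, io_1, io_2, Yf_2,
      mul_vecMulVec, e2]
    simp [vc_zero, Yf_2, vv_zero]

end

/-- The inclusion of a summand. -/
def z (K : Type) [Field K] (a : Fin 2) : Matrix S (Fin 3) K := of fun s i => if s = (i, a) then 1 else 0

omit [CharZero K] in
theorem mul_z {m : Type} (A : Matrix m S K) (a : Fin 2) (i : m) (j : Fin 3) :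
    (A * z K a) i j = A i (j, a) := by simp [z, mul_apply]

omit [CharZero K] in
theorem z_mul {m : Type} (A : Matrix S m K) (a : Fin 2) (i : Fin 3) (j : m) :
    ((z K a)ᵀ * A) i j = A (i, a) j := by simp [z, mul_apply]

omit [CharZero K] in
theorem mul_z' {m : Type} (A : Matrix m (Fin 3) K) (a : Fin 2) (i : m) (j : Fin 3) (b : Fin 2) :
    (A * (z K a)ᵀ) i (j, b) = if b = a then A i j else 0 := by
  by_cases h : b = a <;> simp [z, mul_apply, h]

omit [CharZero K] in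
theorem z_mul' {m : Type} (A : Matrix (Fin 3) m K) (a : Fin 2) (i : Fin 3) (b : Fin 2) (j : m) :
    (z K a * A) (i, b) j = if b = a then A i j else 0 := by
  by_cases h : b = a <;> simp [z, mul_apply, h]

omit [CharZero K] in
theorem z_z (a b : Fin 2) : (z K a)ᵀ * z K b = if a = b then (1 : Matrix (Fin 3) (Fin 3) K) else 0 := by
  ext i j
  rw [mul_z]
  by_cases h : a = b <;> simp [z, h, one_apply, eq_comm]

/-- The root element. -/
def Y0 : R K := Yf ![0, 1] ![-1, 0] (z K 0)ᵀ (z K 1)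

theorem Y0_sq : (Y0 : R K) * Y0 = 0 := by
  have e (B : Matrix (Fin 3) (Fin 3) K) : (z K 1)ᵀ * (z K 0 * B * (z K 0)ᵀ) * z K 1 = 0 := by
    rw [Matrix.mul_assoc, Matrix.mul_assoc, z_z]
    simp
  refine LinearMap.ext fun y => J_ext ?_ ?_
  · rw [Module.End.mul_apply, Y0, Yf_1, Yf_2, vecMul_vecMulVec]
    simp [cr_zero]
  · rw [Module.End.mul_apply, Y0, Yf_2, Yf_1, transpose_transpose, e, vc_zero, mulVec_zero, vv_zero]
    rfl

theorem Y0_sm (t : K) : Sm 1 (1 + t • (Y0 : R K)) := fun y => by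
  have e1 (i : Fin 3) (a : Fin 2) (j : Fin 3) (b : Fin 2) : (Y0 y).1.1 (i, a) (j, b) =
      if b = 0 then if a = 0 then cr (fun i => y.2 1 (i, 0)) i j else 0 else 0 := by
    have : (z K 0)ᵀ *ᵥ (![0, 1] ᵥ* y.2) = fun i => y.2 1 (i, 0) := by
      ext i
      simp [z, mulVec, vecMul, dotProduct]
    rw [Y0, Yf_1, transpose_transpose, mul_z', z_mul', this]
  have e2 (e : Fin 2) (i : Fin 3) (a : Fin 2) : (Y0 y).2 e (i, a) =
      ![-1, 0] e * if a = 1 then vc (of fun i j => y.1.1 (i, 1) (j, 1)) i else 0 := by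
    have : (z K 1)ᵀ * y.1.1 * z K 1 = of fun i j => y.1.1 (i, 1) (j, 1) := by
      ext i j
      rw [mul_z, z_mul, of_apply]
    rw [Y0, Yf_2, this, vecMulVec_apply]
    by_cases h : a = 1 <;> simp [z, mulVec, dotProduct, h]
  obtain ⟨a1, a2, a3, a4, a5, a6, a7, a8, a9, a10, a11, a12, a13, a14, a15⟩ := Alt.low y.1
  simp only [N, pf, LinearMap.add_apply, Module.End.one_apply, LinearMap.smul_apply, add_1, add_2,
    smul_1, smul_2, Matrix.add_apply, Matrix.smul_apply, dotProduct, mulVec, sum_S, e1, e2]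
  simp [cr, vc, Alt.dg, a1, a2, a3, a4, a5, a6, a7, a8, a9, a10, a11, a12, a13, a14, a15]
  ring

theorem xt_Y0 [IsAlgClosed K] : Xt (Y0 : R K) := by
  refine ⟨fun e => ?_, Y0_sq, gl_of_sq Y0_sq Y0_sm⟩
  have := tr_Yf (K := K) ![0, 1] ![-1, 0] 0 ![0, 1] (z K 0)ᵀ 0 (z K 1) (z K 0)
  rw [← Y0, e, zero_mul, map_zero, z_z] at this
  simp at this

end Vale.Agent.P011LV
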